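import Vale.Agent.P007.Obstruction
import Vale.Agent.P007.Field
import Vale.Agent.P007.Orders
import Vale.Agent.P007.Maximal

namespace Vale.Agent.Results.P007.CompositeDegree

open Filter Topology Vale.Agent.P007

/-- Torus packets fail to equidistribute for every composite degree, for rings of integers of
fields of growing discriminant as well as for orders in one field, and, in every degree, along
every sequence whose orders infinitely often contain an irrational element of bounded house. -/
theorem result :
    (∀ (n : ℕ) (K : ℕ → Type) [∀ i, Field (K i)] [∀ i, NumberField (K i)],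
      (∀ i, Module.finrank ℚ (K i) = n) → ∀ (σ : ∀ i, Fin n ≃ (K i →+* ℝ))
        (O : ∀ i, Subring (K i)) (B : ℝ),
        (∃ᶠ i in atTop, ∃ α ∈ O i, α ∉ Set.range (algebraMap ℚ (K i)) ∧
          ∀ j, |σ i j α| ≤ B) →
        NotEquidistributed (fun i => packetSupport (σ i) (O i))) ∧
    (∀ n : ℕ, 2 ≤ n → ¬ n.Prime →
      ∃ (K : Type) (_ : Field K) (_ : NumberField K) (σ : Fin n ≃ (K →+* ℝ))
        (O : ℕ → Subring K) (b : ∀ i, Module.Basis (Fin n) ℤ (O i)),
        Module.finrank ℚ K = n ∧
        (∀ i, IsOrder (O i)) ∧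
        Tendsto (fun i => |Algebra.discr ℚ (fun k => (b i k : K))|) atTop atTop ∧
        (∀ i, (packetSupport σ (O i)).Nonempty) ∧
        NotEquidistributed (fun i => packetSupport σ (O i))) ∧
    (∀ n : ℕ, 2 ≤ n → ¬ n.Prime →
      ∃ (K : ℕ → Type) (_ : ∀ i, Field (K i)) (_ : ∀ i, NumberField (K i))
        (σ : ∀ i, Fin n ≃ (K i →+* ℝ)),
        (∀ i, Module.finrank ℚ (K i) = n) ∧
        (∀ i, IsOrder (integralClosure ℤ (K i)).toSubring) ∧
        Tendsto (fun i => |NumberField.discr (K i)|) atTop atTop ∧
        (∀ i, (packetSupport (σ i) (integralClosure ℤ (K i)).toSubring).Nonempty) ∧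
        NotEquidistributed
          (fun i => packetSupport (σ i) (integralClosure ℤ (K i)).toSubring)) := by
  refine ⟨fun n K _ _ hn σ O B h => notEquidistributed_of_bounded n K hn σ O B h, ?_,
    exists_maximal_notEquidistributed⟩
  intro n hn2 hnp
  obtain ⟨a, ⟨c, rfl⟩, ha2, halt⟩ := Nat.exists_dvd_of_not_prime2 hn2 hnp
  have hc2 : 2 ≤ c := by
    rcases c with _ | _ | c
    · simp at halt
    · simp at halt
    · omega
  obtain ⟨K, iF, iN, σ, z, hfin, hz, hzq, hzd⟩ := exists_field ha2 hc2
  refine ⟨K, iF, iN, σ, fun i => orderN z hz (i + 1),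
    fun i => (exists_basis_orderN hfin z hz (i + 1) i.succ_ne_zero).some, hfin,
    fun i => isOrder_orderN z hz (i + 1) i.succ_ne_zero, ?_, ?_, ?_⟩
  · refine tendsto_atTop_mono (fun i => ?_) (tendsto_natCast_atTop_atTop (R := ℚ))
    refine le_trans ?_ (natCast_sq_le_discr hfin z hz hzd (i + 1) _)
    push_cast
    nlinarith
  · exact fun i => packetSupport_nonempty hfin σ _
      (exists_basis_orderN hfin z hz (i + 1) i.succ_ne_zero).some
  · refine notEquidistributed_of_bounded _ (fun _ => K) (fun _ => hfin) (fun _ => σ) _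
      (∑ j, |σ j z|) (Frequently.of_forall fun i => ⟨z, mem_orderN_self z hz _, hzq, fun j => ?_⟩)
    exact Finset.single_le_sum (f := fun j => |σ j z|) (fun j _ => abs_nonneg _)
      (Finset.mem_univ j)

end Vale.Agent.Results.P007.CompositeDegree
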